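import Vale.Agent.P066.Theta.Uncond
import Vale.Agent.P066.Theta.H615.Chart

/-!
# Logarithmic derivatives of zero parts

The coefficient at `c` is a trace on the series supported on `ω(·, c) = 0`.  Hence the
`c`-coefficient of `k⁻¹ * euler k` is not changed by refactoring `k` with respect to another linear
form which vanishes at `c`.
-/

set_option autoImplicit false

open Finset

namespace Vale.Agent.P066.Theta

noncomputable section

open QSeries

variable {r : ℕ} {B : Matrix (Fin r) (Fin r) ℤ}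

namespace H753

/-! ### degree, weights -/

theorem deg_zero : deg (0 : Fin r →₀ ℕ) = 0 := by simp [deg]

theorem deg_add (a b : Fin r →₀ ℕ) : deg (a + b) = deg a + deg b := by
  simp [deg, sum_add_distrib]

theorem deg_smul (n : ℕ) (b : Fin r →₀ ℕ) : deg (n • b) = n * deg b := by
  simp [deg, mul_sum]

theorem deg_mono {a b : Fin r →₀ ℕ} (h : a ≤ b) : deg a ≤ deg b :=
  sum_le_sum fun i _ => h i

theorem deg_eq_zero {a : Fin r →₀ ℕ} : deg a = 0 ↔ a = 0 := by
  constructor
  · intro h
    ext i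
    have := (sum_eq_zero_iff.1 h) i (mem_univ i)
    simpa using this
  · rintro rfl
    exact deg_zero

theorem wt_smul (Q : Fin r → ℤ) (n : ℕ) (b : Fin r →₀ ℕ) : wt Q (n • b) = n * wt Q b := by
  simp [wt, mul_sum, mul_assoc]

theorem toZ_smul (n : ℕ) (b : Fin r →₀ ℕ) : toZ (n • b) = (n : ℤ) • toZ b := by
  funext i
  simp [toZ]

theorem omega_smul_right (x y : Fin r → ℤ) (n : ℤ) :
    omega B x (n • y) = n * omega B x y := by
  simp only [omega, Pi.smul_apply, smul_eq_mul, mul_sum]
  refine sum_congr rfl fun i _ => sum_congr rfl fun j _ => ?_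
  ring

theorem wt_chartAt_smul (n : ℕ) (b a : Fin r →₀ ℕ) :
    wt (chartAt B 0 (n • b)) a = n * wt (chartAt B 0 b) a := by
  rw [wt_chartAt_zero, wt_chartAt_zero, toZ_smul, omega_smul_right]

/-! ### submonoids -/

/-- `{γ | Q(γ) = 0}`. -/
def zeroSub (Q : Fin r → ℤ) : AddSubmonoid (Fin r →₀ ℕ) where
  carrier := {γ | wt Q γ = 0}
  zero_mem' := by simp
  add_mem' := by
    intro a b ha hb
    simp only [Set.mem_ofPred_eq] at ha hb ⊢
    rw [wt_add, ha, hb, add_zero]

theorem mem_zeroSub {Q : Fin r → ℤ} {γ : Fin r →₀ ℕ} : γ ∈ zeroSub Q ↔ wt Q γ = 0 := Iff.rfl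

/-- `{γ | γ = 0 or Q(γ) < 0}`. -/
def negSub (Q : Fin r → ℤ) : AddSubmonoid (Fin r →₀ ℕ) where
  carrier := {γ | γ = 0 ∨ wt Q γ < 0}
  zero_mem' := Or.inl rfl
  add_mem' := by
    rintro a b (rfl | ha) hb
    · simpa using hb
    · right
      rw [wt_add]
      rcases hb with rfl | hb
      · simpa using ha
      · exact add_neg ha hb

theorem mem_negSub {Q : Fin r → ℤ} {γ : Fin r →₀ ℕ} : γ ∈ negSub Q ↔ γ = 0 ∨ wt Q γ < 0 := Iff.rfl

/-- Lexicographically positive elements. -/
def lexPos (Q R : Fin r → ℤ) : AddSubmonoid (Fin r →₀ ℕ) where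
  carrier := {γ | γ = 0 ∨ 0 < wt Q γ ∨ (wt Q γ = 0 ∧ 0 < wt R γ)}
  zero_mem' := Or.inl rfl
  add_mem' := by
    rintro a b (rfl | ha) hb
    · simpa using hb
    · right
      rw [wt_add, wt_add]
      rcases hb with rfl | hb
      · simpa using ha
      · omega

/-- Lexicographically nonpositive elements. -/
def lexLe (Q R : Fin r → ℤ) : AddSubmonoid (Fin r →₀ ℕ) where
  carrier := {γ | wt Q γ < 0 ∨ (wt Q γ = 0 ∧ wt R γ ≤ 0)}
  zero_mem' := by simp
  add_mem' := by
    intro a b ha hb
    simp only [Set.mem_ofPred_eq] at ha hb ⊢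
    rw [wt_add, wt_add]
    omega

/-- Lexicographically negative elements. -/
def lexNeg (Q R : Fin r → ℤ) : AddSubmonoid (Fin r →₀ ℕ) where
  carrier := {γ | γ = 0 ∨ wt Q γ < 0 ∨ (wt Q γ = 0 ∧ wt R γ < 0)}
  zero_mem' := Or.inl rfl
  add_mem' := by
    rintro a b (rfl | ha) hb
    · simpa using hb
    · right
      rw [wt_add, wt_add]
      rcases hb with rfl | hb
      · simpa using ha
      · omega

theorem mem_lexPos {Q R : Fin r → ℤ} {γ : Fin r →₀ ℕ} :
    γ ∈ lexPos Q R ↔ γ = 0 ∨ 0 < wt Q γ ∨ (wt Q γ = 0 ∧ 0 < wt R γ) := Iff.rfl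

theorem mem_lexLe {Q R : Fin r → ℤ} {γ : Fin r →₀ ℕ} :
    γ ∈ lexLe Q R ↔ wt Q γ < 0 ∨ (wt Q γ = 0 ∧ wt R γ ≤ 0) := Iff.rfl

theorem mem_lexNeg {Q R : Fin r → ℤ} {γ : Fin r →₀ ℕ} :
    γ ∈ lexNeg Q R ↔ γ = 0 ∨ wt Q γ < 0 ∨ (wt Q γ = 0 ∧ wt R γ < 0) := Iff.rfl

theorem supp_mono {S T : AddSubmonoid (Fin r →₀ ℕ)} (h : S ≤ T) {f : QSeries B}
    (hf : f ∈ supp (B := B) S) : f ∈ supp (B := B) T := fun γ hγ => h (hf γ hγ)

/-! ### factors of a series with restricted support -/

theorem factor_mem {P L S : AddSubmonoid (Fin r →₀ ℕ)} (hPL : ∀ γ, γ ∈ P → γ ∈ L → γ = 0)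
    {gp gm : QSeries B} (h1 : gp 0 = 1) (h2 : gm 0 = 1) (hp : gp ∈ supp (B := B) P)
    (hm : gm ∈ supp (B := B) L) (h : gp * gm ∈ supp (B := B) S) :
    gp ∈ supp (B := B) S ∧ gm ∈ supp (B := B) S := by
  classical
  suffices H : ∀ δ, δ ∉ S → gp δ = 0 ∧ gm δ = 0 by
    constructor
    · intro γ hγ
      by_contra hc
      exact hγ (H γ hc).1
    · intro γ hγ
      by_contra hc
      exact hγ (H γ hc).2
  intro δ
  induction δ using WellFoundedLT.induction with
  | ind δ ih =>
    intro hδ
    have h0 : δ ≠ 0 := fun h => hδ (h ▸ S.zero_mem)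
    have e : (gp * gm) δ = 0 := by
      by_contra hc
      exact hδ (h δ hc)
    rw [mul_apply_extreme _ _ h0, h1, h2] at e
    have e2 : ∑ p ∈ (antidiagonal δ).filter (fun p => p.1 ≠ 0 ∧ p.2 ≠ 0),
        v ^ omega B (toZ p.1) (toZ p.2) * gp p.1 * gm p.2 = 0 := by
      refine sum_eq_zero fun p hpp => ?_
      rw [mem_filter, HasAntidiagonal.mem_antidiagonal] at hpp
      have l1 := lt_of_antidiagonal_fst hpp.1 hpp.2.2
      have l2 := lt_of_antidiagonal_snd hpp.1 hpp.2.1
      by_cases hs : p.1 ∈ S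
      · by_cases hs' : p.2 ∈ S
        · exact absurd (hpp.1 ▸ S.add_mem hs hs') hδ
        · rw [(ih p.2 l2 hs').2, mul_zero]
      · rw [(ih p.1 l1 hs).1, mul_zero, zero_mul]
    rw [e2, add_zero, one_mul, mul_one] at e
    by_cases hP : gp δ = 0
    · rw [hP, add_zero] at e
      exact ⟨hP, e⟩
    · have : gm δ = 0 := by
        by_contra hc
        exact h0 (hPL δ (hp δ hP) (hm δ hc))
      rw [this, zero_add] at e
      exact absurd e hP

/-! ### inverses -/

theorem exists_inv {S : AddSubmonoid (Fin r →₀ ℕ)} {f : QSeries B} (h : f 0 = 1)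
    (hf : f ∈ supp (B := B) S) :
    ∃ g : QSeries B, f * g = 1 ∧ g * f = 1 ∧ g ∈ supp (B := B) S :=
  ⟨Ring.inverse f, Ring.mul_inverse_cancel f (isUnit_of_one h),
    Ring.inverse_mul_cancel f (isUnit_of_one h),
    inverse_mem_supp hf (by rw [h]; exact one_ne_zero)⟩

/-! ### Euler derivation -/

theorem euler_apply (F : QSeries B) (γ : Fin r →₀ ℕ) : euler F γ = (deg γ : K) * F γ := rfl

theorem euler_mul (F G : QSeries B) : euler (F * G) = euler F * G + F * euler G := by
  ext γ
  rw [QSeries.add_apply, euler_apply, QSeries.mul_apply, QSeries.mul_apply, QSeries.mul_apply, mul_sum, ← sum_add_distrib]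
  refine sum_congr rfl fun p hp => ?_
  rw [HasAntidiagonal.mem_antidiagonal] at hp
  rw [euler_apply, euler_apply, ← hp, deg_add]
  push_cast
  ring

theorem euler_mem_supp {S : AddSubmonoid (Fin r →₀ ℕ)} {f : QSeries B}
    (hf : f ∈ supp (B := B) S) : euler f ∈ supp (B := B) S := by
  intro γ hγ
  apply hf
  intro h
  apply hγ
  rw [euler_apply, h, mul_zero]

@[simp] theorem euler_zero_apply (F : QSeries B) : euler F 0 = 0 := by
  rw [euler_apply, deg_zero]
  simp

/-- Truncated uniqueness of logarithmic derivatives. -/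
theorem logder_congr {f f' L L' : QSeries B} (D : ℕ) (h : f 0 = 1) (h' : f' 0 = 1)
    (hL : f * L = euler f) (hL' : f' * L' = euler f')
    (hf : ∀ γ, deg γ ≤ D → f γ = f' γ) : ∀ γ, deg γ ≤ D → L γ = L' γ := by
  classical
  have hL0 : L 0 = 0 := by
    have := congrFun hL 0
    rw [mul_zero_apply, h, one_mul, euler_zero_apply] at this
    exact this
  have hL0' : L' 0 = 0 := by
    have := congrFun hL' 0
    rw [mul_zero_apply, h', one_mul, euler_zero_apply] at this
    exact this
  intro γ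
  induction γ using WellFoundedLT.induction with
  | ind γ ih =>
    intro hγ
    by_cases h0 : γ = 0
    · rw [h0, hL0, hL0']
    have e := congrFun hL γ
    have e' := congrFun hL' γ
    rw [mul_apply_extreme _ _ h0, h, hL0, euler_apply] at e
    rw [mul_apply_extreme _ _ h0, h', hL0', euler_apply] at e'
    have e2 : ∑ p ∈ (antidiagonal γ).filter (fun p => p.1 ≠ 0 ∧ p.2 ≠ 0),
        v ^ omega B (toZ p.1) (toZ p.2) * f p.1 * L p.2 =
        ∑ p ∈ (antidiagonal γ).filter (fun p => p.1 ≠ 0 ∧ p.2 ≠ 0),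
        v ^ omega B (toZ p.1) (toZ p.2) * f' p.1 * L' p.2 := by
      refine sum_congr rfl fun p hpp => ?_
      rw [mem_filter, HasAntidiagonal.mem_antidiagonal] at hpp
      have l1 := lt_of_antidiagonal_fst hpp.1 hpp.2.2
      have l2 := lt_of_antidiagonal_snd hpp.1 hpp.2.1
      rw [hf p.1 ((deg_mono l1.le).trans hγ), ih p.2 l2 ((deg_mono l2.le).trans hγ)]
    rw [e2] at e
    rw [hf γ hγ] at e
    linear_combination e - e'

/-! ### the trace -/

/-- The coefficient at `c` is a trace on the series supported on `ω(·, c) = 0`. -/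
theorem trace (hB : B.transpose = -B) (c : Fin r →₀ ℕ) {F : QSeries B} (G : QSeries B)
    (hF : F ∈ supp (B := B) (zeroSub (chartAt B 0 c))) : (F * G) c = (G * F) c := by
  have h1 : (F * G) c = ∑ p ∈ antidiagonal c, F p.1 * G p.2 := by
    rw [mul_apply]
    refine sum_congr rfl fun p hp => ?_
    rw [HasAntidiagonal.mem_antidiagonal] at hp
    by_cases h : F p.1 = 0
    · simp [h]
    · have h2 := mem_zeroSub.1 (hF p.1 h)
      rw [wt_chartAt_zero, ← hp, toZ_add, omega_add_right, omega_self hB, zero_add] at h2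
      rw [h2]
      simp
  have h2 : (G * F) c = ∑ p ∈ antidiagonal c, G p.1 * F p.2 := by
    rw [mul_apply]
    refine sum_congr rfl fun p hp => ?_
    rw [HasAntidiagonal.mem_antidiagonal] at hp
    by_cases h : F p.2 = 0
    · simp [h]
    · have h2 := mem_zeroSub.1 (hF p.2 h)
      rw [wt_chartAt_zero, ← hp, toZ_add, omega_add_right, omega_self hB, add_zero,
        omega_swap hB, neg_eq_zero] at h2
      rw [h2]
      simp
  rw [h1, h2]
  refine sum_nbij' Prod.swap Prod.swap ?_ ?_ ?_ ?_ ?_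
  · intro p hp
    rw [HasAntidiagonal.mem_antidiagonal] at hp ⊢
    rw [Prod.fst_swap, Prod.snd_swap, add_comm, hp]
  · intro p hp
    rw [HasAntidiagonal.mem_antidiagonal] at hp ⊢
    rw [Prod.fst_swap, Prod.snd_swap, add_comm, hp]
  · intro p _
    exact Prod.swap_swap p
  · intro p _
    exact Prod.swap_swap p
  · intro p _
    rw [Prod.fst_swap, Prod.snd_swap, mul_comm]

/-- The `c`-coefficient of the logarithmic derivative is not changed by refactoring. -/
theorem logder_refactor (hB : B.transpose = -B) (c : Fin r →₀ ℕ) (hc : c ≠ 0) {Q : Fin r → ℤ}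
    (hQc : wt Q c = 0) {k kp f km L L' : QSeries B}
    (hkp : kp 0 = 1) (hf : f 0 = 1) (hkm : km 0 = 1)
    (sp : kp ∈ supp (B := B) (posSub Q)) (sm : km ∈ supp (B := B) (negSub Q))
    (zf : f ∈ supp (B := B) (zeroSub (chartAt B 0 c)))
    (zm : km ∈ supp (B := B) (zeroSub (chartAt B 0 c)))
    (hk : k = kp * f * km) (hL : k * L = euler k) (hL' : f * L' = euler f) : L c = L' c := by
  obtain ⟨kp', p1, p2, p3⟩ := exists_inv hkp sp
  obtain ⟨f', f1, f2, f3⟩ := exists_inv hf zf
  obtain ⟨km', m1, m2, m3⟩ := exists_inv hkm sm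
  obtain ⟨km'', n1, n2, n3⟩ := exists_inv hkm zm
  have hmm : km'' = km' := by
    calc km'' = km'' * (km * km') := by rw [m1, mul_one]
      _ = km' := by rw [← mul_assoc, n2, one_mul]
  rw [hmm] at n3
  have e1 : L = (km' * f') * (kp' * euler kp * (f * km)) + km' * (f' * euler f * km) +
      km' * euler km := by
    have e0 : L = km' * f' * kp' * (k * L) := by
      rw [hk]
      calc L = km' * (f' * (kp' * kp) * f) * km * L := by
            rw [p2, mul_one, f2, mul_one, m2, one_mul]
        _ = km' * f' * kp' * (kp * f * km * L) := by noncomm_ring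
    rw [e0, hL, hk, euler_mul, euler_mul]
    calc km' * f' * kp' * ((euler kp * f + kp * euler f) * km + kp * f * euler km)
        = (km' * f') * (kp' * euler kp * (f * km)) + km' * (f' * (kp' * kp) * euler f * km) +
          km' * (f' * (kp' * kp) * f) * euler km := by noncomm_ring
      _ = _ := by rw [p2, mul_one, f2, mul_one]
  have e2 : ((km' * f') * (kp' * euler kp * (f * km))) c = 0 := by
    rw [trace hB c _ (mul_mem n3 f3)]
    have : kp' * euler kp * (f * km) * (km' * f') = kp' * euler kp := by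
      calc kp' * euler kp * (f * km) * (km' * f')
          = kp' * euler kp * (f * (km * km') * f') := by noncomm_ring
        _ = kp' * euler kp := by rw [m1, mul_one, f1, mul_one]
    rw [this]
    by_contra hne
    rcases mem_posSub.1 (mul_mem p3 (euler_mem_supp sp) c hne) with h | h
    · exact hc h
    · rw [hQc] at h
      exact lt_irrefl _ h
  have e3 : (km' * (f' * euler f * km)) c = L' c := by
    rw [trace hB c _ n3, mul_assoc, mul_assoc, m1, mul_one, ← hL', ← mul_assoc, f2, one_mul]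
  have e4 : (km' * euler km) c = 0 := by
    by_contra hne
    rcases mem_negSub.1 (mul_mem m3 (euler_mem_supp sm) c hne) with h | h
    · exact hc h
    · rw [hQc] at h
      exact lt_irrefl _ h
  rw [e1, QSeries.add_apply, QSeries.add_apply, e2, e3, e4, zero_add, add_zero]

end H753

end

end Vale.Agent.P066.Theta
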