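import Vale.Agent.P066.Theta.H753.Logder

/-!
# The wall function close to an attractor ray

If `Q` is close to `ω(·, b)`, on the wall `b^⊥` and on no other wall (up to degree `D`), the zero
part `g0` of `g` with respect to `Q` has the logarithmic derivative prescribed by the incoming data.
-/

set_option autoImplicit false

open Finset

namespace Vale.Agent.P066.Theta

noncomputable section

open QSeries

variable {r : ℕ} {B : Matrix (Fin r) (Fin r) ℤ}

namespace H753

/-! ### existence of triples -/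

theorem pos_or_le' (Q : Fin r → ℤ) (γ : Fin r →₀ ℕ) : γ ∈ leSub Q ↔ γ ∈ zeroSub Q ∨ wt Q γ < 0 := by
  rw [mem_leSub, mem_zeroSub]
  omega

/-- Existence of the factorization according to the sign of `Q`, with supports. -/
theorem exists_triple_supp (S : AddSubmonoid (Fin r →₀ ℕ)) {g : QSeries B} (h0 : g 0 = 1)
    (hS : g ∈ supp (B := B) S) (Q : Fin r → ℤ) :
    ∃ gp g0 gm : QSeries B, gp 0 = 1 ∧ g0 0 = 1 ∧ gm 0 = 1 ∧
      gp ∈ supp (B := B) (posSub Q) ∧ g0 ∈ supp (B := B) (zeroSub Q) ∧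
      gm ∈ supp (B := B) (negSub Q) ∧ gp ∈ supp (B := B) S ∧ g0 ∈ supp (B := B) S ∧
      gm ∈ supp (B := B) S ∧ g = gp * g0 * gm := by
  -- positive part
  obtain ⟨gp, m, hp1, hm1, hp2, hm2, he⟩ := exists_factor (pos_le_disj Q) (pos_or_le Q) g h0
  obtain ⟨hpS, hmS⟩ := factor_mem (pos_le_disj Q) hp1 hm1 hp2 hm2 (he ▸ hS)
  -- zero part: factor `m` by `{-Q ≤ 0}` and `{-Q > 0}`
  have d1 : ∀ γ : Fin r →₀ ℕ, γ ∈ leSub (-Q) → γ ∈ posSub (-Q) → γ = 0 := fun γ h h' =>
    pos_le_disj (-Q) γ h' h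
  have d2 : ∀ γ : Fin r →₀ ℕ, γ ∈ leSub (-Q) ∨ γ ∈ posSub (-Q) := fun γ => (pos_or_le (-Q) γ).symm
  obtain ⟨g0, gm, h01, hg1, h02, hg2, he'⟩ := exists_factor d1 d2 m hm1
  obtain ⟨a1, a2⟩ := factor_mem d1 h01 hg1 h02 hg2 (he' ▸ hmS)
  obtain ⟨b1, -⟩ := factor_mem d1 h01 hg1 h02 hg2 (he' ▸ hm2)
  have hneg : ∀ γ : Fin r →₀ ℕ, wt (-Q) γ = - wt Q γ := by
    intro γ
    simp [wt, sum_neg_distrib]
  refine ⟨gp, g0, gm, hp1, h01, hg1, hp2, ?_, ?_, hpS, a1, a2, ?_⟩
  · intro γ hγ
    have e1 := mem_leSub.1 (h02 γ hγ)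
    have e2 := mem_leSub.1 (b1 γ hγ)
    rw [hneg] at e1
    rw [mem_zeroSub]
    omega
  · intro γ hγ
    have e1 := mem_posSub.1 (hg2 γ hγ)
    rw [hneg] at e1
    rw [mem_negSub]
    rcases e1 with h | h
    · exact Or.inl h
    · right
      omega
  · rw [he, he', mul_assoc]

theorem isTriple_of_supp {g gp g0 gm : QSeries B} {Q : Fin r → ℤ} (h1 : gp 0 = 1) (h2 : g0 0 = 1)
    (h3 : gm 0 = 1) (hp : gp ∈ supp (B := B) (posSub Q)) (hz : g0 ∈ supp (B := B) (zeroSub Q))
    (hm : gm ∈ supp (B := B) (negSub Q)) (he : g = gp * g0 * gm) : IsTriple g gp g0 gm Q where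
  gp_zero := h1
  gp_supp := fun γ h hγ => (mem_posSub.1 (hp γ hγ)).resolve_left h
  g0_zero := h2
  g0_supp := fun γ hγ => mem_zeroSub.1 (hz γ hγ)
  gm_zero := h3
  gm_supp := fun γ h hγ => (mem_negSub.1 (hm γ hγ)).resolve_left h
  eq := he

theorem IsTriple.pos_mem {g gp g0 gm : QSeries B} {Q : Fin r → ℤ} (T : IsTriple g gp g0 gm Q) :
    gp ∈ supp (B := B) (posSub Q) := by
  intro γ hγ
  by_cases h : γ = 0
  · exact Or.inl h
  · exact Or.inr (T.gp_supp γ h hγ)

theorem IsTriple.zero_mem {g gp g0 gm : QSeries B} {Q : Fin r → ℤ} (T : IsTriple g gp g0 gm Q) :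
    g0 ∈ supp (B := B) (zeroSub Q) := fun γ hγ => T.g0_supp γ hγ

theorem IsTriple.neg_mem {g gp g0 gm : QSeries B} {Q : Fin r → ℤ} (T : IsTriple g gp g0 gm Q) :
    gm ∈ supp (B := B) (negSub Q) := by
  intro γ hγ
  by_cases h : γ = 0
  · exact Or.inl h
  · exact Or.inr (T.gm_supp γ h hγ)

/-- The triple for `ω(·, n • b)` is the triple for `ω(·, b)`. -/
theorem IsTriple.chartAt_smul {g gp g0 gm : QSeries B} {b : Fin r →₀ ℕ}
    (T : IsTriple g gp g0 gm (chartAt B 0 b)) {n : ℕ} (hn : 0 < n) :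
    IsTriple g gp g0 gm (chartAt B 0 (n • b)) := by
  have hn' : (0 : ℤ) < n := by exact_mod_cast hn
  refine ⟨T.gp_zero, ?_, T.g0_zero, ?_, T.gm_zero, ?_, T.eq⟩
  · intro γ h hγ
    rw [wt_chartAt_smul]
    exact mul_pos hn' (T.gp_supp γ h hγ)
  · intro γ hγ
    rw [wt_chartAt_smul, T.g0_supp γ hγ, mul_zero]
  · intro γ h hγ
    rw [wt_chartAt_smul]
    exact mul_neg_of_pos_of_neg hn' (T.gm_supp γ h hγ)

/-! ### comparison of lexicographic refinements -/

/-- Let `g = gp * (kp * f * km) * gm` be a lexicographic factorization (first the sign of `Q`, then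
the sign of `R`), and let `hp * h0 * hm` be the factorization of `g` by the sign of `R`.  If on
degrees `≤ D` the sign of `R` is the lexicographic sign, then `h0 = f` up to degree `D`. -/
theorem zero_part_lex {Q R : Fin r → ℤ} {D : ℕ}
    (hpos : ∀ γ : Fin r →₀ ℕ, deg γ ≤ D → 0 < wt Q γ → 0 < wt R γ)
    (hneg : ∀ γ : Fin r →₀ ℕ, deg γ ≤ D → wt Q γ < 0 → wt R γ < 0)
    {g gp gm kp f km hp h0 hm : QSeries B}
    (hg0 : g 0 = 1)
    (gp1 : gp 0 = 1) (gm1 : gm 0 = 1) (kp1 : kp 0 = 1) (f1 : f 0 = 1) (km1 : km 0 = 1)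
    (gps : gp ∈ supp (B := B) (posSub Q)) (gms : gm ∈ supp (B := B) (negSub Q))
    (kpz : kp ∈ supp (B := B) (zeroSub Q)) (fz : f ∈ supp (B := B) (zeroSub Q))
    (kmz : km ∈ supp (B := B) (zeroSub Q))
    (kps : kp ∈ supp (B := B) (posSub R)) (fs : f ∈ supp (B := B) (zeroSub R))
    (kms : km ∈ supp (B := B) (negSub R))
    (he : g = gp * (kp * f * km) * gm) (T : IsTriple g hp h0 hm R) :
    ∀ γ, deg γ ≤ D → h0 γ = f γ := by
  -- supports in the lexicographic submonoids
  have s1 : gp * kp ∈ supp (B := B) (lexPos Q R) := by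
    refine mul_mem ?_ ?_
    · intro γ hγ
      rcases mem_posSub.1 (gps γ hγ) with h | h
      · exact Or.inl h
      · exact Or.inr (Or.inl h)
    · intro γ hγ
      rcases mem_posSub.1 (kps γ hγ) with h | h
      · exact Or.inl h
      · exact Or.inr (Or.inr ⟨mem_zeroSub.1 (kpz γ hγ), h⟩)
  have s2 : km * gm ∈ supp (B := B) (lexNeg Q R) := by
    refine mul_mem ?_ ?_
    · intro γ hγ
      rcases mem_negSub.1 (kms γ hγ) with h | h
      · exact Or.inl h
      · exact Or.inr (Or.inr ⟨mem_zeroSub.1 (kmz γ hγ), h⟩)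
    · intro γ hγ
      rcases mem_negSub.1 (gms γ hγ) with h | h
      · exact Or.inl h
      · exact Or.inr (Or.inl h)
  have s3 : f ∈ supp (B := B) (lexLe Q R) := by
    intro γ hγ
    exact Or.inr ⟨mem_zeroSub.1 (fz γ hγ), le_of_eq (mem_zeroSub.1 (fs γ hγ))⟩
  have s4 : km * gm ∈ supp (B := B) (lexLe Q R) := by
    intro γ hγ
    rcases mem_lexNeg.1 (s2 γ hγ) with h | h | h
    · rw [h]
      exact (lexLe Q R).zero_mem
    · exact Or.inl h
    · exact Or.inr ⟨h.1, h.2.le⟩
  have t1 : h0 ∈ supp (B := B) (leSub R) := by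
    intro γ hγ
    exact le_of_eq (T.g0_supp γ hγ)
  have t2 : hm ∈ supp (B := B) (leSub R) := by
    intro γ hγ
    rcases mem_negSub.1 (IsTriple.neg_mem T γ hγ) with h | h
    · rw [h]
      exact (leSub R).zero_mem
    · exact h.le
  have e1 : hp * (h0 * hm) = g := by rw [T.eq, mul_assoc]
  have e2 : (gp * kp) * (f * (km * gm)) = g := by
    rw [he]
    simp only [mul_assoc]
  intro γ hγ
  -- first comparison
  have c1 := factor_congr (P := posSub R) (L := leSub R) (P' := lexPos Q R) (L' := lexLe Q R)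
    (pos_le_disj R) γ
    (fun δ hδ => by
      have h1 := hpos δ ((deg_mono hδ).trans hγ)
      have h2 := hneg δ ((deg_mono hδ).trans hγ)
      rw [mem_lexPos, mem_posSub]
      constructor
      · rintro (h | h | h)
        · exact Or.inl h
        · exact Or.inr (h1 h)
        · exact Or.inr h.2
      · rintro (h | h)
        · exact Or.inl h
        · right
          rcases lt_trichotomy (wt Q δ) 0 with h3 | h3 | h3
          · have := h2 h3
            omega
          · exact Or.inr ⟨h3, h⟩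
          · exact Or.inl h3)
    (fun δ hδ => by
      have h1 := hpos δ ((deg_mono hδ).trans hγ)
      have h2 := hneg δ ((deg_mono hδ).trans hγ)
      rw [mem_lexLe, mem_leSub]
      constructor
      · rintro (h | h)
        · exact (h2 h).le
        · exact h.2
      · intro h
        rcases lt_trichotomy (wt Q δ) 0 with h3 | h3 | h3
        · exact Or.inl h3
        · exact Or.inr ⟨h3, h⟩
        · have := h1 h3
          omega)
    (gp := hp) (gm := h0 * hm) (gp' := gp * kp) (gm' := f * (km * gm))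
    T.gp_zero (by rw [mul_zero_apply, gp1, kp1, one_mul]) (by rw [e1, hg0]) (by rw [e2, hg0])
    (IsTriple.pos_mem T) s1 (mul_mem t1 t2) (mul_mem s3 s4)
    (fun δ _ => by rw [e1, e2])
  -- second comparison
  have c2 := factor_congr (P := zeroSub R) (L := negSub R) (P' := zeroSub Q ⊓ zeroSub R)
    (L' := lexNeg Q R)
    (fun δ h h' => by
      rcases mem_negSub.1 h' with h'' | h''
      · exact h''
      · have := mem_zeroSub.1 h
        omega) γ
    (fun δ hδ => by
      have h1 := hpos δ ((deg_mono hδ).trans hγ)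
      have h2 := hneg δ ((deg_mono hδ).trans hγ)
      rw [AddSubmonoid.mem_inf, mem_zeroSub, mem_zeroSub]
      omega)
    (fun δ hδ => by
      have h1 := hpos δ ((deg_mono hδ).trans hγ)
      have h2 := hneg δ ((deg_mono hδ).trans hγ)
      rw [mem_lexNeg, mem_negSub]
      constructor
      · rintro (h | h | h)
        · exact Or.inl h
        · exact Or.inr (h2 h)
        · exact Or.inr h.2
      · rintro (h | h)
        · exact Or.inl h
        · right
          rcases lt_trichotomy (wt Q δ) 0 with h3 | h3 | h3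
          · exact Or.inl h3
          · exact Or.inr ⟨h3, h⟩
          · have := h1 h3
            omega)
    (gp := h0) (gm := hm) (gp' := f) (gm' := km * gm)
    T.g0_zero f1 (by rw [mul_zero_apply, T.g0_zero, T.gm_zero, one_mul])
    (by rw [mul_zero_apply, mul_zero_apply, f1, km1, gm1, one_mul, one_mul])
    (IsTriple.zero_mem T)
    (fun δ hδ => AddSubmonoid.mem_inf.2 ⟨fz δ hδ, fs δ hδ⟩)
    (IsTriple.neg_mem T) s2
    (fun δ hδ => (c1 δ hδ).2)
  exact (c2 γ le_rfl).1

/-! ### the logarithmic derivative on the wall -/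

/-- The logarithmic derivative of the wall function at `Q`, on the ray of `b`. -/
theorem exists_logder (hB : B.transpose = -B) {g : QSeries B} (hg : IsCluster B g) {D : ℕ}
    {Q : Fin r → ℤ} {b : Fin r →₀ ℕ} (hb : b ≠ 0) (hQb : wt Q b = 0) (hN : NearRay B Q D b)
    {gp g0 gm : QSeries B} (T : IsTriple g gp g0 gm Q) :
    ∃ L : QSeries B, g0 * L = euler g0 ∧
      ∀ n : ℕ, 1 ≤ n → n * deg b ≤ D → L (n • b) = clusterData (n • b) := by
  -- the triple for `ω(·, b)`
  obtain ⟨ap, k, am, a1, k1, am1, as, ks, ams, -, -, -, ae⟩ :=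
    exists_triple_supp ⊤ hg.1 (fun γ _ => trivial) (chartAt B 0 b)
  have TA : IsTriple g ap k am (chartAt B 0 b) := isTriple_of_supp a1 k1 am1 as ks ams ae
  -- refactor `k`
  obtain ⟨kp, f, km, kp1, f1, km1, kps, fs, kms, kpz, fz, kmz, ke⟩ :=
    exists_triple_supp (zeroSub (chartAt B 0 b)) k1 ks Q
  -- comparison with `g0`
  have hcomp : ∀ γ, deg γ ≤ D → g0 γ = f γ := by
    refine zero_part_lex (Q := chartAt B 0 b) (R := Q) ?_ ?_ hg.1 a1 am1 kp1 f1 km1 as ams kpz fz
      kmz kps fs kms (ke ▸ ae) T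
    · intro γ hγ h
      rw [wt_chartAt_zero] at h
      exact hN.1 γ hγ h
    · intro γ hγ h
      rw [wt_chartAt_zero] at h
      exact hN.2 γ hγ h
  -- logarithmic derivatives
  obtain ⟨g0i, i1, i2, -⟩ := exists_inv T.g0_zero (IsTriple.zero_mem T)
  obtain ⟨fi, j1, j2, -⟩ := exists_inv f1 fs
  obtain ⟨ki, l1, l2, -⟩ := exists_inv k1 ks
  refine ⟨g0i * euler g0, by rw [← mul_assoc, i1, one_mul], ?_⟩
  intro n hn hD
  have hnb : n • b ≠ 0 := by
    intro h
    have := congrArg deg h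
    rw [deg_smul, deg_zero] at this
    rcases Nat.mul_eq_zero.1 this with h | h
    · omega
    · exact hb (deg_eq_zero.1 h)
  have e1 : (g0i * euler g0) (n • b) = (fi * euler f) (n • b) :=
    logder_congr D T.g0_zero f1 (by rw [← mul_assoc, i1, one_mul]) (by rw [← mul_assoc, j1, one_mul])
      hcomp (n • b) (by rw [deg_smul]; exact hD)
  have TA' := IsTriple.chartAt_smul TA (n := n) hn
  have hz : ∀ {h : QSeries B}, h ∈ supp (B := B) (zeroSub (chartAt B 0 b)) →
      h ∈ supp (B := B) (zeroSub (chartAt B 0 (n • b))) := by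
    intro h hh γ hγ
    rw [mem_zeroSub, wt_chartAt_smul, mem_zeroSub.1 (hh γ hγ), mul_zero]
  have e2 : (ki * euler k) (n • b) = (fi * euler f) (n • b) :=
    logder_refactor hB (n • b) hnb (Q := Q) (by rw [wt_smul, hQb, mul_zero]) kp1 f1 km1 kps kms
      (hz fz) (hz kmz) ke (by rw [← mul_assoc, l1, one_mul]) (by rw [← mul_assoc, j1, one_mul])
  rw [e1, ← e2]
  exact hg.2 (n • b) hnb ap k am (ki * euler k) TA' (by rw [← mul_assoc, l1, one_mul])

/-- `b` is primitive (up to degree `D`) if `Q` lies on the wall of `b` only. -/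
theorem primitive_of_isWallAt {Q : Fin r → ℤ} {D : ℕ} {b : Fin r →₀ ℕ} (hb : b ≠ 0)
    (hW : IsWallAt Q D b) (hD : deg b ≤ D) {m : ℕ} {c : Fin r →₀ ℕ} (h : m • c = b) : m = 1 := by
  have hm : m ≠ 0 := by
    rintro rfl
    rw [zero_smul] at h
    exact hb h.symm
  have hc : c ≠ 0 := by
    rintro rfl
    rw [smul_zero] at h
    exact hb h.symm
  have h1 : wt Q c = 0 := by
    have := hW.1
    rw [← h, wt_smul] at this
    rcases mul_eq_zero.1 this with h2 | h2
    · exact absurd (by exact_mod_cast h2) hm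
    · exact h2
  have h2 : deg c ≤ D := by
    have : deg b = m * deg c := by rw [← h, deg_smul]
    have h3 : deg c ≤ m * deg c := Nat.le_mul_of_pos_left _ (Nat.pos_of_ne_zero hm)
    omega
  obtain ⟨n, hn⟩ := hW.2 c hc h2 h1
  have h3 : deg c = n * (m * deg c) := by
    have : deg b = m * deg c := by rw [← h, deg_smul]
    rw [← this, ← deg_smul, ← hn]
  have h4 : 0 < deg c := Nat.pos_of_ne_zero fun h => hc (deg_eq_zero.1 h)
  have h5 : (n * m) * deg c = 1 * deg c := by rw [mul_assoc, ← h3, one_mul]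
  have h6 : n * m = 1 := Nat.eq_of_mul_eq_mul_right h4 h5
  exact Nat.dvd_one.1 ⟨n, by rw [mul_comm]; exact h6.symm⟩

end H753

end

end Vale.Agent.P066.Theta
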